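import Mathlib.CategoryTheory.Triangulated.Pretriangulated
import Mathlib.CategoryTheory.Triangulated.Yoneda
import Mathlib.CategoryTheory.Monoidal.Braided.Basic
import Mathlib.CategoryTheory.Monoidal.Preadditive

/-!
Tensor triangulated categories: the tensor product is exact in the second variable
(hence, in a symmetric monoidal category, in both).
-/

open CategoryTheory MonoidalCategory Limits Pretriangulated

universe v u

namespace Vale.Agent.P251

/-- A tensor triangulated category: a (pre)triangulated category with a tensor product which is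
additive, commutes with the shift naturally in both variables and compatibly with the unit, and
preserves distinguished triangles. -/
class TensorTriangulated (T : Type u) [Category.{v} T] [Preadditive T] [HasZeroObject T]
    [HasShift T ℤ] [∀ n : ℤ, (shiftFunctor T n).Additive] [Pretriangulated T]
    [MonoidalCategory T] extends MonoidalPreadditive T where
  /-- the natural isomorphism `X ⊗ Y[1] ≅ (X ⊗ Y)[1]` -/
  shiftIso (X Y : T) : X ⊗ (Y⟦(1 : ℤ)⟧) ≅ (X ⊗ Y)⟦(1 : ℤ)⟧
  shiftIso_natural_right (X : T) {Y Z : T} (f : Y ⟶ Z) :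
    (X ◁ f⟦(1 : ℤ)⟧') ≫ (shiftIso X Z).hom = (shiftIso X Y).hom ≫ (X ◁ f)⟦(1 : ℤ)⟧'
  shiftIso_natural_left {X Y : T} (f : X ⟶ Y) (Z : T) :
    (f ▷ (Z⟦(1 : ℤ)⟧)) ≫ (shiftIso Y Z).hom = (shiftIso X Z).hom ≫ (f ▷ Z)⟦(1 : ℤ)⟧'
  shiftIso_unit (X : T) :
    (shiftIso (𝟙_ T) X).hom ≫ ((λ_ X).hom)⟦(1 : ℤ)⟧' = (λ_ (X⟦(1 : ℤ)⟧)).hom
  distinguished (X : T) (Δ : Triangle T) (hΔ : Δ ∈ distTriang T) :
    Triangle.mk (X ◁ Δ.mor₁) (X ◁ Δ.mor₂) ((X ◁ Δ.mor₃) ≫ (shiftIso X Δ.obj₁).hom) ∈ distTriang T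

end Vale.Agent.P251
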