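import Vale.Agent.P251.R.TT

/-!
# Bousfield localizations in a tensor triangulated category
-/

open CategoryTheory MonoidalCategory Limits Pretriangulated

universe v u

namespace Vale.Agent.P251

variable {T : Type u} [Category.{v} T] [Preadditive T] [HasZeroObject T]
    [HasShift T ℤ] [∀ n : ℤ, (shiftFunctor T n).Additive] [Pretriangulated T]
    [MonoidalCategory T]

/-- `f : X ⟶ Y` is the Bousfield localization of `X` with respect to (the wedge of) the family
`E`: it is an isomorphism after tensoring with every `E i`, and every map to `Y` from an object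
`Z` with `E i ⊗ Z = 0` for all `i` vanishes. -/
def IsBousfieldLocalization {ι : Type} (E : ι → T) {X Y : T} (f : X ⟶ Y) : Prop :=
  (∀ i, IsIso (E i ◁ f)) ∧ ∀ Z : T, (∀ i, IsZero (E i ⊗ Z)) → ∀ g : Z ⟶ Y, g = 0

/-- The family `K 0, …, K j` (localizing with respect to it is localizing with respect to
`K 0 ∨ … ∨ K j`, i.e. with respect to Johnson-Wilson theory `E(j)`). -/
def upTo (K : ℕ → T) (j : ℕ) : Fin (j + 1) → T := fun i => K i

end Vale.Agent.P251
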