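import Vale.Agent.P251.R.Main
import Vale.Agent.P251.R.Loc
import Mathlib.CategoryTheory.Limits.Preserves.Shapes.Biproducts

/-!
The chromatic layer: Bousfield localizations, the splitting model `W_n`, and the reduction of the
strong chromatic splitting formula to the homology of the `K(n)`-local sphere.
-/

set_option linter.unusedSectionVars false

open CategoryTheory MonoidalCategory Limits Pretriangulated MonObj
open scoped CategoryTheory.Obj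

universe v u v' u'

namespace Vale.Agent.P251

variable {T : Type u} [Category.{v} T] [Preadditive T] [HasZeroObject T]
    [HasShift T ℤ] [∀ n : ℤ, (shiftFunctor T n).Additive] [Pretriangulated T]
    [MonoidalCategory T]

variable [TensorTriangulated T]

lemma nonempty_tensor_shift (X Z : T) [SymmetricCategory T] (a : ℤ) :
    Nonempty (X ⊗ (Z⟦a⟧) ≅ (X ⊗ Z)⟦a⟧) := by
  induction a using Int.induction_on with
  | zero =>
    exact ⟨whiskerLeftIso X ((shiftFunctorZero T ℤ).app Z) ≪≫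
      ((shiftFunctorZero T ℤ).app (X ⊗ Z)).symm⟩
  | succ a ih =>
    obtain ⟨e⟩ := ih
    exact ⟨whiskerLeftIso X ((shiftFunctorAdd T (a : ℤ) 1).app Z) ≪≫
      TensorTriangulated.shiftIso X _ ≪≫ (shiftFunctor T (1 : ℤ)).mapIso e ≪≫
      ((shiftFunctorAdd T (a : ℤ) 1).app (X ⊗ Z)).symm⟩
  | pred a ih =>
    obtain ⟨e⟩ := ih
    have h : (-(a : ℤ) - 1) = -(a : ℤ) + (-1) := by ring
    rw [h]
    exact ⟨whiskerLeftIso X ((shiftFunctorAdd T (-(a : ℤ)) (-1)).app Z) ≪≫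
      tensorShiftNeg X _ ≪≫ (shiftFunctor T (-1 : ℤ)).mapIso e ≪≫
      ((shiftFunctorAdd T (-(a : ℤ)) (-1)).app (X ⊗ Z)).symm⟩

section

variable [SymmetricCategory T]

lemma isZero_of_iso_zero {X Y : T} (h : IsZero X) (e : Nonempty (X ≅ Y)) : IsZero Y :=
  h.of_iso e.some.symm

lemma isZero_tensor_left {X Y : T} (h : IsZero X) : IsZero (X ⊗ Y) := by
  rw [IsZero.iff_id_eq_zero] at h ⊢
  rw [← id_whiskerRight, h]
  exact MonoidalPreadditive.zero_whiskerRight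

lemma isZero_tensor_right {X Y : T} (h : IsZero Y) : IsZero (X ⊗ Y) :=
  (isZero_tensor_left (Y := X) h).of_iso (β_ X Y)

lemma isZero_shift {X : T} (h : IsZero X) (a : ℤ) : IsZero (X⟦a⟧) :=
  (shiftFunctor T a).map_isZero h

lemma isZero_tensor_shift {X Y : T} (h : IsZero (X ⊗ Y)) (a : ℤ) : IsZero (X ⊗ (Y⟦a⟧)) :=
  (isZero_shift h a).of_iso (nonempty_tensor_shift X Y a).some

/-- The localization of an acyclic object is zero. -/
lemma IsBousfieldLocalization.isZero {ι : Type} {E : ι → T} {X Y : T} {f : X ⟶ Y}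
    (hf : IsBousfieldLocalization E f) (hX : ∀ i, IsZero (E i ⊗ X)) : IsZero Y := by
  rw [IsZero.iff_id_eq_zero]
  refine hf.2 Y (fun i => ?_) _
  have := hf.1 i
  exact (hX i).of_iso (asIso (E i ◁ f)).symm

/-- `K m ⊗ L_j X = 0` for `j < m`. -/
lemma isZero_tensor_of_smashing {K : ℕ → T} (hK : ∀ i j, i ≠ j → IsZero (K i ⊗ K j))
    {j m : ℕ} (hjm : j < m)
    (hs : ∀ {X Y : T} (f : X ⟶ Y), IsBousfieldLocalization (upTo K j) f →
      ∀ Z : T, IsBousfieldLocalization (upTo K j) (Z ◁ f))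
    {X Y : T} (f : X ⟶ Y) (hf : IsBousfieldLocalization (upTo K j) f) :
    IsZero (K m ⊗ Y) := by
  refine (hs f hf (K m)).isZero (fun i => ?_)
  have h1 : IsZero (K i ⊗ K m) := hK _ _ (by have := i.2; omega)
  exact (isZero_tensor_left (Y := X) h1).of_iso (α_ (K i) (K m) X).symm

/-- Tensoring with `K` inverts the `p`-completion if `p = 0` on the unit of `K`. -/
lemma isIso_whisker_completion {K : T} [MonObj K] {c : ℤ} (hc : c • η[K] = 0)
    {M : T} {a : 𝟙_ T ⟶ M} {b : M ⟶ (𝟙_ T)⟦(1 : ℤ)⟧}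
    (hM : Triangle.mk (c • 𝟙 (𝟙_ T)) a b ∈ distTriang T)
    {X Y : T} (f : X ⟶ Y) (hf : IsIso (M ◁ f)) : IsIso (K ◁ f) := by
  obtain ⟨C, g, h, hC⟩ := distinguished_cocone_triangle f
  -- `M ⊗ C = 0`
  have h1 : IsZero (M ⊗ C) :=
    (Triangle.isZero₃_iff_isIso₁ _ (TensorTriangulated.distinguished M _ hC)).2 hf
  -- `c` is invertible on `C`
  have h2 : IsZero (C ⊗ M) := h1.of_iso (β_ C M)
  have h3 : IsIso (C ◁ (c • 𝟙 (𝟙_ T))) :=
    (Triangle.isZero₃_iff_isIso₁ _ (TensorTriangulated.distinguished C _ hM)).1 h2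
  have h4 : C ◁ (c • 𝟙 (𝟙_ T)) = c • 𝟙 (C ⊗ 𝟙_ T) := by
    have : C ◁ (c • 𝟙 (𝟙_ T)) = c • (C ◁ (𝟙 (𝟙_ T))) := (tensorLeft C).map_zsmul
    rw [this, MonoidalCategory.whiskerLeft_id]
  rw [h4] at h3
  -- `c = 0` on `K`
  have h5 : c • 𝟙 K = 0 := by
    have e1 : 𝟙 K = (λ_ K).inv ≫ (η[K] ▷ K) ≫ μ[K] := by simp
    have e2 : (c • η[K]) ▷ K = c • (η[K] ▷ K) := (tensorRight K).map_zsmul
    rw [e1, ← Preadditive.comp_zsmul, ← Preadditive.zsmul_comp, ← e2, hc]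
    simp
  have h6 : IsZero (K ⊗ (C ⊗ 𝟙_ T)) := by
    have h7 : IsIso (K ◁ (c • 𝟙 (C ⊗ 𝟙_ T))) := inferInstance
    have h8 : K ◁ (c • 𝟙 (C ⊗ 𝟙_ T)) = 0 := by
      have e3 : K ◁ (c • 𝟙 (C ⊗ 𝟙_ T)) = c • (K ◁ (𝟙 (C ⊗ 𝟙_ T))) := (tensorLeft K).map_zsmul
      have e4 : (c • 𝟙 K) ▷ (C ⊗ 𝟙_ T) = c • (𝟙 K ▷ (C ⊗ 𝟙_ T)) :=
        (tensorRight (C ⊗ 𝟙_ T)).map_zsmul
      rw [e3, MonoidalCategory.whiskerLeft_id, ← id_whiskerRight, ← e4, h5]
      simp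
    rw [h8] at h7
    rw [IsZero.iff_id_eq_zero, ← cancel_epi (0 : K ⊗ (C ⊗ 𝟙_ T) ⟶ K ⊗ (C ⊗ 𝟙_ T))]
    simp
  have h9 : IsZero (K ⊗ C) := h6.of_iso (whiskerLeftIso K (ρ_ C).symm)
  exact (Triangle.isZero₃_iff_isIso₁ _ (TensorTriangulated.distinguished K _ hC)).1 h9

end

end Vale.Agent.P251
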