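import Vale.Agent.P251.R.H

/-!
Core of the argument.
-/

set_option linter.unusedSectionVars false

open CategoryTheory MonoidalCategory Limits Pretriangulated MonObj

universe v u v' u'

namespace Vale.Agent.P251

variable {T : Type u} [Category.{v} T] [Preadditive T] [HasZeroObject T]
    [HasShift T ℤ] [∀ n : ℤ, (shiftFunctor T n).Additive] [Pretriangulated T]
    [MonoidalCategory T] [TensorTriangulated T]
variable {D : Type u'} [Category.{v'} D] [Preadditive D] [HasZeroObject D]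
    [HasShift D ℤ] [∀ n : ℤ, (shiftFunctor D n).Additive] [Pretriangulated D]
    [MonoidalCategory D] [SymmetricCategory D] [TensorTriangulated D]
variable {K : T} {I : D ⥤ T} [I.Additive] [I.CommShift ℤ] [I.IsTriangulated]

section

variable {A : D} [MonObj A] {s : A ⟶ A} [IsMonHom s]
variable {L : D} {q : A ⟶ L} {U : L ⟶ (𝟙_ D)⟦(1 : ℤ)⟧}

/-- The class `g` in `H(L)` with `j g = 1`. -/
lemma exists_g (hs : s ≫ s = 𝟙 A) (hΔ : Triangle.mk η[A] q U ∈ distTriang D)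
    (φ : A ⊗ L ≅ A) (hφ : (A ◁ q) ≫ φ.hom = (A ◁ s) ≫ μ[A] - μ[A])
    (Θ : I ⋙ tensorLeft K ≅ tensorRight (L ⊗ L) ⋙ I ⋙ tensorLeft K)
    (u : H K I (𝟙_ D)) (hu2 : u + u = 0) (hu : ∀ x : H K I (𝟙_ D), x = 0 ∨ x = u)
    (hA : push (K := K) (I := I) η[A] u ≠ 0) :
    ∃ g : H K I L, push (jMap A φ) g = push (K := K) (I := I) η[A] u := by
  set w : 𝟙_ D ⟶ 𝟙_ D ⊗ (L ⊗ L) := η[A] ≫ φ.inv ≫ (q ▷ L) ≫ (λ_ (L ⊗ L)).inv with hw
  have key : push w u = 0 := by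
    -- `push w u = Θ c`
    let c : H K I (𝟙_ D) := push w u ≫ Θ.inv.app (𝟙_ D)
    have hc : push w u = c ≫ Θ.hom.app (𝟙_ D) := by
      change push w u = (push w u ≫ Θ.inv.app (𝟙_ D)) ≫ Θ.hom.app (𝟙_ D)
      rw [Category.assoc, Iso.inv_hom_id_app]
      exact (Category.comp_id _).symm
    rcases hu c with h0 | h1
    · rw [hc, h0, zero_comp]
    · exfalso
      apply hA
      have e1 : push (w ≫ (η[A] ▷ (L ⊗ L))) u = (push η[A] u) ≫ Θ.hom.app A := by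
        rw [push_comp, hc, h1]
        have := Θ.hom.naturality η[A]
        dsimp at this
        simp only [push, Category.assoc]
        rw [this]
      have e2 : push (w ≫ (η[A] ▷ (L ⊗ L)) ≫ (α_ A L L).inv ≫ (φ.hom ▷ L) ≫ φ.hom) u = 0 := by
        have := transfer_composite φ hs hΔ hφ
        rw [hw]
        simp only [Category.assoc]
        rw [this, push_neg, push_add, ← push_hom_add, hu2, push_hom_zero, neg_zero]
      have e3 : push (w ≫ (η[A] ▷ (L ⊗ L))) u = 0 := by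
        have h := e2
        rw [← Category.assoc w, push_comp] at h
        let e : A ⊗ (L ⊗ L) ≅ A := (α_ A L L).symm ≪≫ (whiskerRightIso φ L) ≪≫ φ
        have h' : push e.hom (push (w ≫ η[A] ▷ (L ⊗ L)) u) = push e.hom 0 := by
          rw [push_hom_zero]; exact h
        exact (pushEquiv (K := K) (I := I) e).injective h'
      rw [e1] at e3
      have : push η[A] u = (push η[A] u ≫ Θ.hom.app A) ≫ Θ.inv.app A := by
        rw [Category.assoc, Iso.hom_inv_id_app]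
        exact (Category.comp_id _).symm
      rw [this, e3, zero_comp]
  -- hence `x = push (η ≫ φ.inv) u` is killed by `q ▷ L`
  set x : H K I (A ⊗ L) := push (η[A] ≫ φ.inv) u with hx
  have hx0 : push (q ▷ L) x = 0 := by
    rw [hx, ← push_comp]
    have : push ((η[A] ≫ φ.inv) ≫ q ▷ L) u = push (λ_ (L ⊗ L)).hom (push w u) := by
      rw [← push_comp, hw]
      simp
    rw [this, key, push_hom_zero]
  have hx' : push (L ◁ q) (push (β_ A L).hom x) = 0 := by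
    rw [← push_comp, ← BraidedCategory.braiding_naturality_left, push_comp, hx0, push_hom_zero]
  obtain ⟨g', hg'⟩ : ∃ g' : H K I (L ⊗ 𝟙_ D), push (L ◁ η[A]) g' = push (β_ A L).hom x :=
    push_exact₂ _ (TensorTriangulated.distinguished L _ hΔ) _ hx'
  refine ⟨push (ρ_ L).hom g', ?_⟩
  have e4 : (ρ_ L).hom ≫ jMap A φ = (L ◁ η[A]) ≫ (β_ L A).hom ≫ φ.hom := by
    unfold jMap
    rw [BraidedCategory.braiding_naturality_right_assoc]
    simp
  rw [← push_comp, e4, push_comp, hg', ← push_comp]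
  have e5 : (β_ A L).hom ≫ (β_ L A).hom ≫ φ.hom = φ.hom := by
    rw [SymmetricCategory.symmetry_assoc]
  rw [e5, hx, ← push_comp]
  simp

/-- `ρ ≫ j = (L ◁ η) ≫ β ≫ φ`. -/
lemma rho_jMap (φ : A ⊗ L ≅ A) :
    (ρ_ L).hom ≫ jMap A φ = (L ◁ η[A]) ≫ (β_ L A).hom ≫ φ.hom := by
  unfold jMap
  rw [BraidedCategory.braiding_naturality_right_assoc]
  simp

/-- Functoriality of `H` as a group homomorphism. -/
def pushHom {Y Z : D} (f : Y ⟶ Z) : H K I Y →+ H K I Z where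
  toFun := push f
  map_zero' := push_hom_zero f
  map_add' := push_hom_add f

omit [MonoidalCategory D] [SymmetricCategory D] [TensorTriangulated D] [I.Additive]
  [I.CommShift ℤ] [I.IsTriangulated] in
lemma add_self_eq_zero_of [MonObj K] (h2 : η[K] + η[K] = 0) {X W : T} (x : W ⟶ K ⊗ X) :
    x + x = 0 := by
  have h1 : 𝟙 K + 𝟙 K = 0 := by
    have : 𝟙 K = (λ_ K).inv ≫ (η[K] ▷ K) ≫ μ[K] := by simp
    rw [this, ← Preadditive.comp_add, ← Preadditive.add_comp,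
      ← MonoidalPreadditive.add_whiskerRight, h2]
    simp
  have h3 : 𝟙 (K ⊗ X) + 𝟙 (K ⊗ X) = 0 := by
    rw [← id_whiskerRight, ← MonoidalPreadditive.add_whiskerRight, h1]
    simp
  calc x + x = x ≫ (𝟙 _ + 𝟙 _) := by simp
    _ = 0 := by rw [h3, comp_zero]

/-- `X ⊗ Z[-1] ≅ (X ⊗ Z)[-1]`. -/
noncomputable def tensorShiftNeg (X Z : D) :
    X ⊗ (Z⟦(-1 : ℤ)⟧) ≅ (X ⊗ Z)⟦(-1 : ℤ)⟧ :=
  (shiftShiftNeg (X ⊗ (Z⟦(-1 : ℤ)⟧)) (1 : ℤ)).symm ≪≫
    (shiftFunctor D (-1 : ℤ)).mapIso ((TensorTriangulated.shiftIso X (Z⟦(-1 : ℤ)⟧)).symm ≪≫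
      whiskerLeftIso X (shiftNegShift Z (1 : ℤ)))

omit [MonoidalCategory D] [SymmetricCategory D] [TensorTriangulated D] in
lemma finite_of_iso {Y Z : D} (e : Y ≅ Z) (h : Finite (H K I Y)) : Finite (H K I Z) :=
  Finite.of_equiv _ (pushEquiv e)

omit [MonoidalCategory D] [SymmetricCategory D] [TensorTriangulated D] in
/-- The kernel of the first map of a triangle is finite if `H` of the third object shifted is. -/
lemma finite_ker_mor₁ (Δ : Triangle D) (hΔ : Δ ∈ distTriang D)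
    (h : Finite (H K I (Δ.obj₃⟦(-1 : ℤ)⟧))) : {z : H K I Δ.obj₁ | push Δ.mor₁ z = 0}.Finite := by
  have h1 := inv_rot_of_distTriang _ hΔ
  refine (Set.finite_range (fun y : H K I (Δ.obj₃⟦(-1 : ℤ)⟧) =>
    push Δ.invRotate.mor₁ y)).subset ?_
  intro z hz
  obtain ⟨y, hy⟩ := push_exact₂ _ h1 z hz
  exact ⟨y, hy⟩

lemma finite_ker_j (hΔ : Triangle.mk η[A] q U ∈ distTriang D)
    (φ : A ⊗ L ≅ A) (Θ : I ⋙ tensorLeft K ≅ tensorRight (L ⊗ L) ⋙ I ⋙ tensorLeft K)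
    (Y : D) (hY : Finite (H K I (Y⟦(-1 : ℤ)⟧))) :
    {z : H K I (Y ⊗ L) | push (Y ◁ jMap A φ) z = 0}.Finite := by
  -- `H (((Y ⊗ L) ⊗ L)[-1])` is finite
  have h1 : Finite (H K I ((Y⟦(-1 : ℤ)⟧) ⊗ (L ⊗ L))) := by
    refine @Finite.of_equiv (H K I ((Y⟦(-1 : ℤ)⟧) ⊗ (L ⊗ L))) (H K I (Y⟦(-1 : ℤ)⟧)) hY
      ⟨fun x => x ≫ Θ.hom.app _, fun x => x ≫ Θ.inv.app _, fun x => ?_, fun x => ?_⟩
    · change (x ≫ Θ.hom.app _) ≫ Θ.inv.app _ = x
      rw [Category.assoc, Iso.hom_inv_id_app]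
      exact Category.comp_id _
    · change (x ≫ Θ.inv.app _) ≫ Θ.hom.app _ = x
      rw [Category.assoc, Iso.inv_hom_id_app]
      exact Category.comp_id _
  have e1 : (Y⟦(-1 : ℤ)⟧) ⊗ (L ⊗ L) ≅ (((Y ⊗ L) ⊗ L)⟦(-1 : ℤ)⟧) :=
    β_ _ _ ≪≫ tensorShiftNeg (L ⊗ L) Y ≪≫ (shiftFunctor D (-1 : ℤ)).mapIso
      (β_ _ _ ≪≫ (α_ _ _ _).symm)
  have h2 := finite_of_iso (K := K) (I := I) e1 h1
  have h3 := finite_ker_mor₁ _ (TensorTriangulated.distinguished (Y ⊗ L) _ hΔ) h2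
  let e : (Y ⊗ L) ⊗ A ≅ Y ⊗ A := α_ Y L A ≪≫ whiskerLeftIso Y (β_ L A ≪≫ φ)
  have e2 : ((Y ⊗ L) ◁ η[A]) ≫ e.hom = (ρ_ (Y ⊗ L)).hom ≫ (Y ◁ jMap A φ) := by
    simp only [e, Iso.trans_hom, whiskerLeftIso_hom]
    rw [tensor_whiskerLeft, Category.assoc, Category.assoc, Iso.inv_hom_id_assoc,
      ← MonoidalCategory.whiskerLeft_comp, ← rho_jMap]
    simp
  refine (h3.image (push (ρ_ (Y ⊗ L)).hom)).subset ?_
  intro z hz
  refine ⟨push (ρ_ (Y ⊗ L)).inv z, ?_, ?_⟩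
  · change push ((Y ⊗ L) ◁ η[A]) (push (ρ_ (Y ⊗ L)).inv z) = 0
    have e3 : (ρ_ (Y ⊗ L)).inv ≫ ((Y ⊗ L) ◁ η[A]) = (Y ◁ jMap A φ) ≫ e.inv := by
      rw [Iso.inv_comp_eq, ← Category.assoc, ← e2, Category.assoc, Iso.hom_inv_id,
        Category.comp_id]
    rw [← push_comp, e3, push_comp, show push (Y ◁ jMap A φ) z = 0 from hz, push_hom_zero]
  · rw [← push_comp, Iso.inv_hom_id, push_id]

lemma finite_ker_q (hΔ : Triangle.mk η[A] q U ∈ distTriang D)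
    (Y : D) (hY : Finite (H K I Y)) :
    {x : H K I (Y ⊗ A) | push (Y ◁ q) x = 0}.Finite := by
  have h1 : Finite (H K I (Y ⊗ 𝟙_ D)) := finite_of_iso (ρ_ Y).symm hY
  refine (Set.finite_range (fun y : H K I (Y ⊗ 𝟙_ D) => push (Y ◁ η[A]) y)).subset ?_
  intro z hz
  obtain ⟨y, hy⟩ := push_exact₂ _ (TensorTriangulated.distinguished Y _ hΔ) z hz
  exact ⟨y, hy⟩

/-- The invariants of `s` on `H (Y ⊗ A)` are finite. -/
lemma finite_invariants (hΔ : Triangle.mk η[A] q U ∈ distTriang D)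
    (φ : A ⊗ L ≅ A) (hφ : (A ◁ q) ≫ φ.hom = (A ◁ s) ≫ μ[A] - μ[A])
    (Θ : I ⋙ tensorLeft K ≅ tensorRight (L ⊗ L) ⋙ I ⋙ tensorLeft K)
    (Y : D) (hY : Finite (H K I Y)) (hY' : Finite (H K I (Y⟦(-1 : ℤ)⟧))) :
    {x : H K I (Y ⊗ A) | push (Y ◁ s) x = x}.Finite := by
  have h1 := finite_ker_j hΔ φ Θ Y hY'
  have h2 := finite_ker_q hΔ Y hY
  have key : ∀ x : H K I (Y ⊗ A), push (Y ◁ s) x = x →
      push (Y ◁ jMap A φ) (push (Y ◁ q) x) = 0 := by
    intro x hx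
    rw [← push_comp, ← MonoidalCategory.whiskerLeft_comp, q_comp_jMap φ hφ]
    have : Y ◁ (s - 𝟙 A) = Y ◁ s - 𝟙 (Y ⊗ A) := by
      rw [← MonoidalCategory.whiskerLeft_id]
      exact (tensorLeft Y).map_sub
    rw [this, push_sub, push_id, hx, sub_self]
  refine Set.Finite.of_finite_fibers (pushHom (K := K) (I := I) (Y ◁ q)) ?_ ?_
  · refine h1.subset ?_
    rintro _ ⟨x, hx, rfl⟩
    exact key x hx
  · rintro _ ⟨x, hx, rfl⟩
    refine (h2.image (fun y => x + y)).subset ?_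
    rintro z ⟨hz, hz'⟩
    refine ⟨z - x, ?_, by simp⟩
    have hz'' : pushHom (K := K) (I := I) (Y ◁ q) z = pushHom (Y ◁ q) x := hz'
    change pushHom (K := K) (I := I) (Y ◁ q) (z - x) = 0
    rw [map_sub, hz'', sub_self]

/-- `H (Y ⊗ A)` is finite. -/
lemma finite_tensor [MonObj K] (h2 : η[K] + η[K] = 0) (hs : s ≫ s = 𝟙 A)
    (hΔ : Triangle.mk η[A] q U ∈ distTriang D)
    (φ : A ⊗ L ≅ A) (hφ : (A ◁ q) ≫ φ.hom = (A ◁ s) ≫ μ[A] - μ[A])
    (Θ : I ⋙ tensorLeft K ≅ tensorRight (L ⊗ L) ⋙ I ⋙ tensorLeft K)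
    (Y : D) (hY : Finite (H K I Y)) (hY' : Finite (H K I (Y⟦(-1 : ℤ)⟧))) :
    Finite (H K I (Y ⊗ A)) := by
  have h1 := finite_invariants hΔ φ hφ Θ Y hY hY'
  rw [← Set.finite_univ_iff]
  refine Set.Finite.of_finite_fibers
    (fun x : H K I (Y ⊗ A) => push (Y ◁ s) x - x) ?_ ?_
  · refine h1.subset ?_
    rintro _ ⟨x, -, rfl⟩
    change push (Y ◁ s) (push (Y ◁ s) x - x) = push (Y ◁ s) x - x
    have e1 : push (Y ◁ s) (push (Y ◁ s) x) = x := by
      rw [← push_comp, ← MonoidalCategory.whiskerLeft_comp, hs, MonoidalCategory.whiskerLeft_id,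
        push_id]
    have e2 : push (Y ◁ s) (push (Y ◁ s) x - x) = x - push (Y ◁ s) x := by
      have := (pushHom (K := K) (I := I) (Y ◁ s)).map_sub (push (Y ◁ s) x) x
      change push (Y ◁ s) (push (Y ◁ s) x - x) = push (Y ◁ s) (push (Y ◁ s) x) - push (Y ◁ s) x
        at this
      rw [this, e1]
    rw [e2, ← sub_eq_zero]
    have : x - push (Y ◁ s) x - (push (Y ◁ s) x - x) =
        (x + x) - (push (Y ◁ s) x + push (Y ◁ s) x) := by abel
    rw [this, add_self_eq_zero_of h2, add_self_eq_zero_of h2, sub_zero]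
  · rintro _ ⟨x, -, rfl⟩
    refine (h1.image (fun y => x + y)).subset ?_
    rintro z ⟨-, hz⟩
    refine ⟨z - x, ?_, by simp⟩
    have hz' : push (Y ◁ s) z - z = push (Y ◁ s) x - x := hz
    change push (Y ◁ s) (z - x) = z - x
    have := (pushHom (K := K) (I := I) (Y ◁ s)).map_sub z x
    change push (Y ◁ s) (z - x) = push (Y ◁ s) z - push (Y ◁ s) x at this
    rw [this, ← sub_eq_zero]
    have e3 : push (Y ◁ s) z - push (Y ◁ s) x - (z - x) =
        (push (Y ◁ s) z - z) - (push (Y ◁ s) x - x) := by abel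
    rw [e3, hz', sub_self]

end

end Vale.Agent.P251
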