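import Mathlib.CategoryTheory.Monoidal.Mon
import Mathlib.CategoryTheory.Monoidal.CommMon_
import Mathlib.CategoryTheory.Limits.Shapes.Biproducts
import Mathlib.Data.Finset.Powerset
import Mathlib.Order.Interval.Finset.Nat
import Vale.Agent.P251.R.TT

/-!
# The splitting model `W_n` and quadratic Galois extensions
-/

open CategoryTheory MonoidalCategory Limits Pretriangulated MonObj

universe v u

namespace Vale.Agent.P251

/-- The square `x²` of an element of `Hom(𝟙, M)`, `M` a monoid object. -/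
def square {T : Type u} [Category.{v} T] [MonoidalCategory T] {M : T} [MonObj M]
    (x : 𝟙_ T ⟶ M) : 𝟙_ T ⟶ M :=
  (λ_ (𝟙_ T)).inv ≫ (x ⊗ₘ x) ≫ μ[M]

variable {D : Type u} [Category.{v} D] [Preadditive D] [HasZeroObject D]
    [HasShift D ℤ] [∀ n : ℤ, (shiftFunctor D n).Additive] [Pretriangulated D]

/-- The object `W_n = ⨁_{I ⊆ {1,…,n}} Σ^{-d(I)} X_{n - max I}`, `d(I) = ∑_{i ∈ I} (2i - 1)`,
`max ∅ = 1`. -/
noncomputable def splittingModel (X : ℕ → D) (n : ℕ) : D :=
  ⨁ fun I : (Finset.Icc 1 n).powerset =>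
    (X (n - max 1 (I.1.sup id)))⟦-∑ i ∈ I.1, (2 * (i : ℤ) - 1)⟧

variable [MonoidalCategory D]

/-- The map `A ⊗ A ⟶ A ⊞ A`, `a ⊗ b ↦ (ab, a s(b))`. -/
noncomputable def galoisMap {A : D} [MonObj A] (s : A ⟶ A) : A ⊗ A ⟶ A ⊞ A :=
  biprod.lift μ[A] ((A ◁ s) ≫ μ[A])

variable (D) in
/-- A Galois extension `A` of the unit with group of order two generated by `s`, together with
the cofiber `L` of the unit map of `A`. -/
structure QuadraticExt [SymmetricCategory D] where
  A : D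
  [mon : MonObj A]
  [comm : IsCommMonObj A]
  s : A ⟶ A
  [isMonHom_s : IsMonHom s]
  s_s : s ≫ s = 𝟙 A
  galois : IsIso (galoisMap s)
  L : D
  q : A ⟶ L
  U : L ⟶ (𝟙_ D)⟦(1 : ℤ)⟧
  triangle : Triangle.mk η[A] q U ∈ distTriang D

end Vale.Agent.P251
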