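import Vale.Agent.P251.R.Chrom

/-!
The final theorem: at the prime two the strong chromatic splitting formula fails for all `n ≥ 2`.
-/

set_option linter.unusedSectionVars false

open CategoryTheory MonoidalCategory Limits Pretriangulated MonObj
open scoped CategoryTheory.Obj

universe v u v' u'

namespace Vale.Agent.P251

section

variable {T : Type u} [Category.{v} T] [Preadditive T] [HasZeroObject T]
    [HasShift T ℤ] [∀ n : ℤ, (shiftFunctor T n).Additive] [Pretriangulated T]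

/-- A finite biproduct with at most two nonzero terms. -/
noncomputable def biproductTwo {J : Type} [Fintype J] [DecidableEq J] (F : J → T) (a b : J)
    (hab : a ≠ b) (h : ∀ j, j ≠ a → j ≠ b → IsZero (F j)) : (⨁ F) ≅ F a ⊞ F b where
  hom := biprod.lift (biproduct.π F a) (biproduct.π F b)
  inv := biprod.desc (biproduct.ι F a) (biproduct.ι F b)
  hom_inv_id := by
    rw [biprod.lift_desc, ← biproduct.total (f := F), ← Finset.sum_subset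
      (Finset.subset_univ ({a, b} : Finset J)), Finset.sum_pair hab]
    intro j _ hj
    simp only [Finset.mem_insert, Finset.mem_singleton, not_or] at hj
    rw [(h j hj.1 hj.2).eq_of_tgt (biproduct.π F j) 0, zero_comp]
  inv_hom_id := by
    ext <;> simp [biproduct.ι_π_ne _ hab, biproduct.ι_π_ne _ hab.symm]

lemma card_hom_biprod (W A B : T) :
    Nat.card (W ⟶ A ⊞ B) = Nat.card (W ⟶ A) * Nat.card (W ⟶ B) := by
  rw [← Nat.card_prod]
  refine Nat.card_congr ⟨fun f => (f ≫ biprod.fst, f ≫ biprod.snd),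
    fun p => biprod.lift p.1 p.2, fun f => ?_, fun p => ?_⟩
  · ext <;> simp
  · simp

lemma card_hom_iso (W : T) {A B : T} (e : A ≅ B) : Nat.card (W ⟶ A) = Nat.card (W ⟶ B) :=
  Nat.card_congr ⟨fun f => f ≫ e.hom, fun f => f ≫ e.inv, fun f => by simp, fun f => by simp⟩

lemma card_hom_shift (W A : T) (i : ℤ) :
    Nat.card (W ⟶ A⟦-i⟧) = Nat.card (W⟦i⟧ ⟶ A) :=
  Nat.card_congr ((shiftEquiv T i).toAdjunction.homEquiv W A).symm

end

variable {T : Type u} [Category.{v} T] [Preadditive T] [HasZeroObject T]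
    [HasShift T ℤ] [∀ n : ℤ, (shiftFunctor T n).Additive] [Pretriangulated T]
    [MonoidalCategory T] [SymmetricCategory T] [TensorTriangulated T]
variable {D : Type u'} [Category.{v'} D] [Preadditive D] [HasZeroObject D]
    [HasShift D ℤ] [∀ n : ℤ, (shiftFunctor D n).Additive] [Pretriangulated D]
    [MonoidalCategory D] [SymmetricCategory D] [TensorTriangulated D]

lemma nonempty_tensor_splittingModel (K : T) (X : ℕ → T) (n : ℕ) (hn : 2 ≤ n)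
    (hX : ∀ j, j < n - 1 → IsZero (K ⊗ X j)) :
    Nonempty (K ⊗ splittingModel X n ≅ (K ⊗ X (n - 1)) ⊞ (K ⊗ X (n - 1))⟦(-1 : ℤ)⟧) := by
  classical
  let F : (Finset.Icc 1 n).powerset → T := fun I =>
    (X (n - max 1 (I.1.sup id)))⟦-∑ i ∈ I.1, (2 * (i : ℤ) - 1)⟧
  let a : (Finset.Icc 1 n).powerset := ⟨∅, by simp⟩
  let b : (Finset.Icc 1 n).powerset := ⟨{1}, by simp; omega⟩
  have hab : a ≠ b := by
    intro h
    have := congrArg Subtype.val h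
    simp [a, b] at this
  have hz : ∀ j, j ≠ a → j ≠ b → IsZero (K ⊗ F j) := by
    intro j ha hb
    refine isZero_tensor_shift (hX _ ?_) _
    have hj := Finset.mem_powerset.mp j.2
    -- the supremum of `j` is at least two
    have h2 : 2 ≤ j.1.sup id := by
      by_contra hlt
      rw [not_le] at hlt
      have h1 : ∀ i ∈ j.1, i = 1 := by
        intro i hi
        have h3 : i ≤ j.1.sup id := Finset.le_sup (f := id) hi
        have h4 := (Finset.mem_Icc.mp (hj hi)).1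
        omega
      rcases Finset.eq_empty_or_nonempty j.1 with h5 | h5
      · exact ha (Subtype.ext h5)
      · refine hb (Subtype.ext ?_)
        exact Finset.eq_singleton_iff_nonempty_unique_mem.mpr ⟨h5, h1⟩
    omega
  have e1 : K ⊗ splittingModel X n ≅ ⨁ fun j => K ⊗ F j := (tensorLeft K).mapBiproduct F
  have e2 : (⨁ fun j => K ⊗ F j) ≅ (K ⊗ F a) ⊞ (K ⊗ F b) :=
    biproductTwo (fun j => K ⊗ F j) a b hab hz
  have e3 : F a ≅ X (n - 1) := by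
    have : F a = (X (n - 1))⟦(0 : ℤ)⟧ := by simp [F, a]
    exact eqToIso this ≪≫ (shiftFunctorZero T ℤ).app _
  have e4 : F b = (X (n - 1))⟦(-1 : ℤ)⟧ := by simp [F, b]
  obtain ⟨e5⟩ := nonempty_tensor_shift K (X (n - 1)) (-1)
  exact ⟨e1 ≪≫ e2 ≪≫ biprod.mapIso (whiskerLeftIso K e3)
    (whiskerLeftIso K (eqToIso e4) ≪≫ e5)⟩

/-- The numerical consequence of the splitting formula. -/
lemma card_homology {K : T} {I : D ⥤ T} [I.Additive] [I.CommShift ℤ] [I.IsTriangulated]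
    (e : K ⊗ I.obj (𝟙_ D) ≅ K ⊞ K⟦(-1 : ℤ)⟧) (j : ℤ) :
    Nat.card (H K I ((𝟙_ D)⟦j⟧)) =
      Nat.card ((𝟙_ T)⟦-j⟧ ⟶ K) * Nat.card ((𝟙_ T)⟦1 - j⟧ ⟶ K) := by
  obtain ⟨e1⟩ := nonempty_tensor_shift K (I.obj (𝟙_ D)) j
  have := preservesBinaryBiproducts_of_preservesBiproducts (shiftFunctor T j)
  have e2 : K ⊗ I.obj ((𝟙_ D)⟦j⟧) ≅ K⟦j⟧ ⊞ (K⟦(-1 : ℤ)⟧)⟦j⟧ :=
    whiskerLeftIso K ((I.commShiftIso j).app (𝟙_ D)) ≪≫ e1 ≪≫ (shiftFunctor T j).mapIso e ≪≫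
      (shiftFunctor T j).mapBiprod K (K⟦(-1 : ℤ)⟧)
  rw [card_hom_iso _ e2, card_hom_biprod]
  congr 1
  · have := card_hom_shift (𝟙_ T) K (-j)
    rwa [neg_neg] at this
  · have h1 : (K⟦(-1 : ℤ)⟧)⟦j⟧ ≅ K⟦(-(1 - j) : ℤ)⟧ :=
      ((shiftFunctorAdd' T (-1 : ℤ) j (-(1 - j)) (by ring)).app K).symm
    rw [card_hom_iso _ h1]
    exact card_hom_shift (𝟙_ T) K (1 - j)

/-- **Main theorem**: at the prime two the strong chromatic splitting formula fails for every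
`n ≥ 2`. -/
theorem no_splitting (n : ℕ) (hn : 2 ≤ n)
    -- Morava K-theories
    (K : ℕ → T) [MonObj (K (n - 1))]
    (hKK : ∀ i j, i ≠ j → IsZero (K i ⊗ K j))
    (hcoef : ∀ i : ℤ, Nat.card ((𝟙_ T)⟦i⟧ ⟶ K (n - 1)) =
      if (2 * (2 ^ (n - 1) - 1) : ℤ) ∣ i then 2 else 1)
    (hsmash : ∀ (j : ℕ) {X Y : T} (f : X ⟶ Y), IsBousfieldLocalization (upTo K j) f →
      ∀ Z : T, IsBousfieldLocalization (upTo K j) (Z ◁ f))
    -- the 2-complete sphere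
    (M : T) (a : 𝟙_ T ⟶ M) (b : M ⟶ (𝟙_ T)⟦(1 : ℤ)⟧)
    (hM : Triangle.mk ((2 : ℤ) • 𝟙 (𝟙_ T)) a b ∈ distTriang T)
    (S : T) (c : 𝟙_ T ⟶ S) (hc : IsBousfieldLocalization (fun _ : Unit => M) c)
    -- the localizations
    (X : ℕ → T) (l : ∀ j, S ⟶ X j) (hl : ∀ j, IsBousfieldLocalization (upTo K j) (l j))
    (Z : T) (z : S ⟶ Z) (hz : IsBousfieldLocalization (fun _ : Unit => K n) z)
    (Y : T) (y : Z ⟶ Y) (hy : IsBousfieldLocalization (upTo K (n - 1)) y)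
    -- the K(n)-local category
    (I : D ⥤ T) [I.Additive] [I.LaxMonoidal] [I.CommShift ℤ] [I.IsTriangulated]
    (e : I.obj (𝟙_ D) ≅ Z)
    -- the Galois extensions
    (X₁ X₂ : QuadraticExt D)
    (Θ₁ : Nonempty (I ⋙ tensorLeft (K (n - 1)) ≅
      tensorRight (X₁.L ⊗ X₁.L) ⋙ I ⋙ tensorLeft (K (n - 1))))
    (Θ₂ : Nonempty (I ⋙ tensorLeft (K (n - 1)) ≅
      tensorRight (X₂.L ⊗ X₂.L) ⋙ I ⋙ tensorLeft (K (n - 1))))
    (E : D) [MonObj E] [IsCommMonObj E] (j₁ : X₁.A ⟶ E) [IsMonHom j₁] (j₂ : X₂.A ⟶ E)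
    [IsMonHom j₂] (γ₁ γ₂ : E ⟶ E) [IsMonHom γ₁] [IsMonHom γ₂]
    (h₁₁ : j₁ ≫ γ₁ = X₁.s ≫ j₁) (h₁₂ : j₁ ≫ γ₂ = j₁) (h₂₂ : j₂ ≫ γ₂ = X₂.s ≫ j₂)
    (hE : (1 : Pi0 (K (n - 1) ⊗ I.obj E)) ≠ 0)
    (hid₁ : ∀ (b : Pi0 (K (n - 1) ⊗ I.obj E)) (M : ℕ), 0 < M → b ^ 2 ^ M = b →
      ringMap (K (n - 1)) I γ₁ b = b)
    (hid₂ : ∀ (b : Pi0 (K (n - 1) ⊗ I.obj E)) (M : ℕ), 0 < M → b ^ 2 ^ M = b →
      ringMap (K (n - 1)) I γ₂ b = b) :
    IsEmpty (splittingModel X n ≅ Y) := by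
  refine ⟨fun w => ?_⟩
  obtain ⟨Θ₁⟩ := Θ₁
  obtain ⟨Θ₂⟩ := Θ₂
  have hm : 1 ≤ n - 1 := by omega
  have hpow : (2 : ℤ) ≤ 2 ^ (n - 1) := by
    calc (2 : ℤ) = 2 ^ 1 := by norm_num
      _ ≤ 2 ^ (n - 1) := pow_le_pow_right₀ (by norm_num) hm
  -- coefficients
  have hc0 : Nat.card ((𝟙_ T)⟦(0 : ℤ)⟧ ⟶ K (n - 1)) = 2 := by rw [hcoef, if_pos (dvd_zero _)]
  have hc1 : Nat.card ((𝟙_ T)⟦(1 : ℤ)⟧ ⟶ K (n - 1)) = 1 := by
    rw [hcoef, if_neg]
    intro h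
    have := Int.le_of_dvd one_pos h
    omega
  have hcm1 : Nat.card ((𝟙_ T)⟦(-1 : ℤ)⟧ ⟶ K (n - 1)) = 1 := by
    rw [hcoef, if_neg]
    intro h
    have := Int.le_of_dvd one_pos ((dvd_neg (a := (2 * (2 ^ (n - 1) - 1) : ℤ)) (b := 1)).mp h)
    omega
  have hcpos : ∀ i : ℤ, 0 < Nat.card ((𝟙_ T)⟦i⟧ ⟶ K (n - 1)) := by
    intro i; rw [hcoef]; split_ifs <;> norm_num
  -- `2 = 0` in `K`
  have hη : η[K (n - 1)] + η[K (n - 1)] = 0 := by
    have h1 : Nat.card (𝟙_ T ⟶ K (n - 1)) = 2 := by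
      rw [← hc0]
      exact Nat.card_congr ⟨fun f => (shiftFunctorZero T ℤ).hom.app _ ≫ f,
        fun f => (shiftFunctorZero T ℤ).inv.app _ ≫ f, fun f => by simp, fun f => by simp⟩
    have h2 := card_nsmul_eq_zero' (x := η[K (n - 1)])
    rwa [h1, two_nsmul] at h2
  have hη' : (2 : ℤ) • η[K (n - 1)] = 0 := by rw [two_zsmul, hη]
  -- `K ⊗ I 𝟙 ≅ K ⊞ K[-1]`
  obtain ⟨e1⟩ : Nonempty (K (n - 1) ⊗ I.obj (𝟙_ D) ≅ K (n - 1) ⊞ (K (n - 1))⟦(-1 : ℤ)⟧) := by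
    have i1 : IsIso (K (n - 1) ◁ c) := isIso_whisker_completion hη' hM c (hc.1 ())
    have i2 : IsIso (K (n - 1) ◁ l (n - 1)) :=
      (hl (n - 1)).1 ⟨n - 1, Nat.lt_succ_self _⟩
    have i3 : IsIso (K (n - 1) ◁ y) := hy.1 ⟨n - 1, Nat.lt_succ_self _⟩
    obtain ⟨e2⟩ := nonempty_tensor_splittingModel (K (n - 1)) X n hn (fun j hj =>
      isZero_tensor_of_smashing hKK hj (fun f hf Z => hsmash j f hf Z) (l j) (hl j))
    have e3 : K (n - 1) ⊗ X (n - 1) ≅ K (n - 1) :=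
      (asIso (K (n - 1) ◁ l (n - 1))).symm ≪≫ (asIso (K (n - 1) ◁ c)).symm ≪≫ ρ_ _
    exact ⟨whiskerLeftIso _ e ≪≫ asIso (K (n - 1) ◁ y) ≪≫ (whiskerLeftIso _ w).symm ≪≫ e2 ≪≫
      biprod.mapIso e3 ((shiftFunctor T (-1 : ℤ)).mapIso e3)⟩
  have hcard := card_homology (K := K (n - 1)) (I := I) e1
  have hfin : ∀ j : ℤ, Finite (H (K (n - 1)) I ((𝟙_ D)⟦j⟧)) := by
    intro j
    apply Nat.finite_of_card_ne_zero
    rw [hcard]
    exact (Nat.mul_pos (hcpos _) (hcpos _)).ne'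
  have hcard0 : Nat.card (H (K (n - 1)) I (𝟙_ D)) = 2 := by
    have h1 := hcard 0
    rw [neg_zero, sub_zero, hc0, hc1, _root_.mul_one] at h1
    rw [← h1]
    exact Nat.card_congr (pushEquiv (K := K (n - 1)) (I := I)
      ((shiftFunctorZero D ℤ).app (𝟙_ D))).symm
  have hcard1 : Nat.card (H (K (n - 1)) I ((𝟙_ D)⟦(1 : ℤ)⟧)) = 2 := by
    rw [hcard, sub_self, hc0, hcm1]
  have hu0 : η[K (n - 1) ⊗ I.obj (𝟙_ D)] ≠ 0 := by
    intro h
    apply hE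
    change η[K (n - 1) ⊗ I.obj E] = 0
    rw [← push_one, h, push_hom_zero]
  -- two-element groups
  have two : ∀ {G : Type v} [AddCommGroup G], Nat.card G = 2 → ∀ x y : G, x ≠ 0 → y ≠ 0 → x = y := by
    intro G _ hG x y hx hy
    obtain ⟨p, q, hpq, huniv⟩ := Nat.card_eq_two_iff.mp hG
    have h : ∀ g : G, g = p ∨ g = q := fun g => by
      have := Set.mem_univ g
      rw [← huniv] at this
      simpa using this
    rcases h 0 with h0 | h0 <;> rcases h x with h1 | h1 <;> rcases h y with h2 | h2 <;>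
      simp_all
  refine core X₁ X₂ Θ₁ Θ₂ E j₁ j₂ γ₁ γ₂ h₁₁ h₁₂ h₂₂ hE hid₁ hid₂ hη ?_ ?_ ?_ ?_
  · intro x
    by_cases hx : x = 0
    · exact Or.inl hx
    · exact Or.inr (two hcard0 x _ hx hu0)
  · exact two hcard1
  · exact hfin (-1)
  · exact finite_of_iso ((shiftFunctorAdd D (-1 : ℤ) (-1)).app (𝟙_ D)) (hfin (-1 + -1))

/-- Squaring in the ring `π₀ M`. -/
lemma pow_two_pow_eq {M : T} [MonObj M] (b : Pi0 M) (k : ℕ) :
    b ^ 2 ^ k = ((square : (𝟙_ T ⟶ M) → (𝟙_ T ⟶ M))^[k] (show 𝟙_ T ⟶ M from b) : 𝟙_ T ⟶ M) := by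
  induction k with
  | zero => exact _root_.pow_one b
  | succ k ih =>
    rw [Function.iterate_succ_apply', ← ih, _root_.pow_succ]
    exact (_root_.pow_mul b (2 ^ k) 2).trans (_root_.pow_two _)

end Vale.Agent.P251
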