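import Mathlib.CategoryTheory.Monoidal.Mon
import Vale.Agent.P251.R.Defs

/-!
Galois extensions of degree two of the unit object of a tensor triangulated category.
-/

set_option linter.unusedSectionVars false

open CategoryTheory MonoidalCategory Limits Pretriangulated MonObj

universe v u

namespace Vale.Agent.P251

variable {D : Type u} [Category.{v} D] [Preadditive D] [HasZeroObject D]
    [HasShift D ℤ] [∀ n : ℤ, (shiftFunctor D n).Additive] [Pretriangulated D]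
    [MonoidalCategory D] [TensorTriangulated D]

section

variable {A : D} [MonObj A] {s : A ⟶ A}

lemma whiskerLeft_one_galoisMap [IsMonHom s] :
    (A ◁ η[A]) ≫ galoisMap s = (ρ_ A).hom ≫ biprod.lift (𝟙 A) (𝟙 A) := by
  unfold galoisMap
  ext
  · simp
  · simp [← MonoidalCategory.whiskerLeft_comp_assoc]

lemma galoisMap_comp_sub : galoisMap s ≫ (biprod.snd - biprod.fst) = (A ◁ s) ≫ μ[A] - μ[A] := by
  simp [galoisMap, Preadditive.comp_sub]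

variable {L : D} {q : A ⟶ L} {U : L ⟶ (𝟙_ D)⟦(1 : ℤ)⟧}

lemma epi_whiskerLeft_q (hΔ : Triangle.mk η[A] q U ∈ distTriang D) : Epi (A ◁ q) := by
  have h := TensorTriangulated.distinguished A _ hΔ
  have hm : Mono (A ◁ η[A]) := by
    have h1 : (A ◁ η[A]) ≫ μ[A] ≫ (ρ_ A).inv = 𝟙 _ := by simp
    have h2 : Mono ((A ◁ η[A]) ≫ μ[A] ≫ (ρ_ A).inv) := by rw [h1]; infer_instance
    exact mono_of_mono (A ◁ η[A]) (μ[A] ≫ (ρ_ A).inv)
  have h3 := (Triangle.mor₃_eq_zero_iff_mono₁ _ h).2 hm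
  exact (Triangle.mor₃_eq_zero_iff_epi₂ _ h).1 h3

/-- For a degree two Galois extension `A` of the unit with cofiber `L`, the map
`a ⊗ b ↦ a s(b) - ab` induces `A ⊗ L ≅ A`. -/
lemma exists_phi [IsMonHom s] (hΔ : Triangle.mk η[A] q U ∈ distTriang D)
    [IsIso (galoisMap s)] :
    ∃ φ : A ⊗ L ≅ A, (A ◁ q) ≫ φ.hom = (A ◁ s) ≫ μ[A] - μ[A] := by
  have h := TensorTriangulated.distinguished A _ hΔ
  have hepi := epi_whiskerLeft_q hΔ
  have hz : (A ◁ η[A]) ≫ ((A ◁ s) ≫ μ[A] - μ[A]) = 0 := by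
    simp [Preadditive.comp_sub, ← MonoidalCategory.whiskerLeft_comp_assoc]
  obtain ⟨φ, hφ⟩ : ∃ φ : A ⊗ L ⟶ A, (A ◁ s) ≫ μ[A] - μ[A] = (A ◁ q) ≫ φ :=
    Triangle.yoneda_exact₂ _ h ((A ◁ s) ≫ μ[A] - μ[A]) hz
  let ψ : A ⟶ A ⊗ L := biprod.inr ≫ inv (galoisMap s) ≫ (A ◁ q)
  have h1 : ψ ≫ φ = 𝟙 A := by
    simp only [ψ, Category.assoc, ← hφ]
    rw [← galoisMap_comp_sub, IsIso.inv_hom_id_assoc]
    simp [Preadditive.comp_sub]
  have hdiag : biprod.lift (𝟙 A) (𝟙 A) ≫ inv (galoisMap s) ≫ (A ◁ q) = 0 := by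
    have : biprod.lift (𝟙 A) (𝟙 A) = (ρ_ A).inv ≫ (A ◁ η[A]) ≫ galoisMap s := by
      rw [whiskerLeft_one_galoisMap]; simp
    rw [this]
    simp only [Category.assoc, IsIso.hom_inv_id_assoc]
    have h0 : (A ◁ η[A]) ≫ (A ◁ q) = 0 := comp_distTriang_mor_zero₁₂ _ h
    rw [h0, comp_zero]
  have h2 : φ ≫ ψ = 𝟙 _ := by
    rw [← cancel_epi (A ◁ q), ← Category.assoc, ← hφ, ← galoisMap_comp_sub]
    have e : (biprod.snd - biprod.fst : A ⊞ A ⟶ A) ≫ biprod.inr =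
        𝟙 _ - biprod.fst ≫ biprod.lift (𝟙 A) (𝟙 A) := by
      ext <;> simp [Preadditive.sub_comp, Preadditive.comp_sub]
    simp only [ψ, Category.assoc]
    rw [← Category.assoc (biprod.snd - biprod.fst), e]
    simp [Preadditive.sub_comp, hdiag]
  exact ⟨⟨φ, ψ, h2, h1⟩, hφ.symm⟩

variable (φ : A ⊗ L ≅ A)

/-- The map `L ⟶ A` with `q ≫ j = s - 1`. -/
def jMap (A : D) [MonObj A] {L : D} (φ : A ⊗ L ≅ A) : L ⟶ A := (λ_ L).inv ≫ (η[A] ▷ L) ≫ φ.hom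

lemma q_comp_jMap (hφ : (A ◁ q) ≫ φ.hom = (A ◁ s) ≫ μ[A] - μ[A]) :
    q ≫ jMap A φ = s - 𝟙 A := by
  unfold jMap
  have e : q ≫ (λ_ L).inv ≫ (η[A] ▷ L) ≫ φ.hom =
      (λ_ A).inv ≫ (η[A] ▷ A) ≫ (A ◁ q) ≫ φ.hom := by
    rw [leftUnitor_inv_naturality_assoc, whisker_exchange_assoc]
  rw [e, hφ, Preadditive.comp_sub, Preadditive.comp_sub]
  congr 1
  · rw [← whisker_exchange_assoc]
    simp
  · simp

lemma s_comp_phi [IsMonHom s] (hs : s ≫ s = 𝟙 A) (hΔ : Triangle.mk η[A] q U ∈ distTriang D)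
    (hφ : (A ◁ q) ≫ φ.hom = (A ◁ s) ≫ μ[A] - μ[A]) :
    (s ▷ L) ≫ φ.hom = -(φ.hom ≫ s) := by
  have hepi := epi_whiskerLeft_q hΔ
  rw [← cancel_epi (A ◁ q), whisker_exchange_assoc, hφ, Preadditive.comp_neg,
    ← Category.assoc (A ◁ q), hφ, Preadditive.comp_sub, Preadditive.sub_comp, neg_sub]
  congr 1
  · rw [IsMonHom.mul_hom, tensorHom_def, Category.assoc]
  · rw [Category.assoc, IsMonHom.mul_hom, tensorHom_def, Category.assoc,
      ← whisker_exchange_assoc, ← MonoidalCategory.whiskerLeft_comp_assoc, hs]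
    simp

lemma jMap_whiskerRight :
    (λ_ (L ⊗ L)).inv ≫ (η[A] ▷ (L ⊗ L)) ≫ (α_ A L L).inv ≫ (φ.hom ▷ L) = jMap A φ ▷ L := by
  unfold jMap
  simp only [comp_whiskerRight, leftUnitor_tensor_inv, Category.assoc, whiskerRight_tensor,
    Iso.hom_inv_id_assoc]

lemma transfer_composite [IsMonHom s] (hs : s ≫ s = 𝟙 A)
    (hΔ : Triangle.mk η[A] q U ∈ distTriang D)
    (hφ : (A ◁ q) ≫ φ.hom = (A ◁ s) ≫ μ[A] - μ[A]) :
    η[A] ≫ φ.inv ≫ (q ▷ L) ≫ (λ_ (L ⊗ L)).inv ≫ (η[A] ▷ (L ⊗ L)) ≫ (α_ A L L).inv ≫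
      (φ.hom ▷ L) ≫ φ.hom = -(η[A] + η[A]) := by
  have h1 := jMap_whiskerRight (A := A) (L := L) φ
  have h2 : (q ▷ L) ≫ (λ_ (L ⊗ L)).inv ≫ (η[A] ▷ (L ⊗ L)) ≫ (α_ A L L).inv ≫
      (φ.hom ▷ L) ≫ φ.hom = (s ▷ L) ≫ φ.hom - φ.hom := by
    rw [reassoc_of% h1, ← comp_whiskerRight_assoc, q_comp_jMap φ hφ]
    have : (s - 𝟙 A) ▷ L = s ▷ L - 𝟙 (A ⊗ L) := by
      rw [← id_whiskerRight]
      exact (tensorRight L).map_sub
    rw [this, Preadditive.sub_comp, Category.id_comp]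
  rw [h2, s_comp_phi φ hs hΔ hφ]
  simp [Preadditive.comp_sub, Preadditive.comp_neg]
  abel

end

end Vale.Agent.P251
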