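import Mathlib.CategoryTheory.Monoidal.Mon
import Mathlib.CategoryTheory.Monoidal.Preadditive

/-!
The ring `π₀ M = Hom(𝟙, M)` of a monoid object `M` in a preadditive monoidal category.
-/

open CategoryTheory MonoidalCategory MonObj

universe v u

namespace Vale.Agent.P251

variable {T : Type u} [Category.{v} T] [MonoidalCategory T]

/-- The product of two elements of `Hom(𝟙, M)`, `M` a monoid object. -/
def mulHom {M : T} [MonObj M] (x y : 𝟙_ T ⟶ M) : 𝟙_ T ⟶ M :=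
  (λ_ (𝟙_ T)).inv ≫ (x ⊗ₘ y) ≫ μ[M]

section

variable {M : T} [MonObj M]

lemma mulHom_assoc (x y z : 𝟙_ T ⟶ M) :
    mulHom (mulHom x y) z = mulHom x (mulHom y z) := by
  unfold mulHom
  have h1 : ((λ_ (𝟙_ T)).inv ≫ (x ⊗ₘ y) ≫ μ[M]) ⊗ₘ z =
      ((λ_ (𝟙_ T)).inv ▷ 𝟙_ T) ≫ ((x ⊗ₘ y) ⊗ₘ z) ≫ (μ[M] ▷ M) := by
    rw [tensorHom_comp_whiskerRight, whiskerRight_comp_tensorHom]
  have h2 : x ⊗ₘ ((λ_ (𝟙_ T)).inv ≫ (y ⊗ₘ z) ≫ μ[M]) =
      (𝟙_ T ◁ (λ_ (𝟙_ T)).inv) ≫ (x ⊗ₘ (y ⊗ₘ z)) ≫ (M ◁ μ[M]) := by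
    rw [tensorHom_comp_whiskerLeft, whiskerLeft_comp_tensorHom]
  rw [h1, h2]
  simp only [Category.assoc, MonObj.mul_assoc, associator_naturality_assoc]
  have : (λ_ (𝟙_ T)).inv ≫ (λ_ (𝟙_ T)).inv ▷ 𝟙_ T ≫ (α_ (𝟙_ T) (𝟙_ T) (𝟙_ T)).hom =
      (λ_ (𝟙_ T)).inv ≫ 𝟙_ T ◁ (λ_ (𝟙_ T)).inv := by
    monoidal_coherence
  rw [reassoc_of% this]

lemma one_mulHom (x : 𝟙_ T ⟶ M) : mulHom η[M] x = x := by
  unfold mulHom
  rw [one_mul_hom]
  simp

lemma mulHom_one (x : 𝟙_ T ⟶ M) : mulHom x η[M] = x := by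
  unfold mulHom
  rw [mul_one_hom, ← unitors_equal]
  simp

lemma mulHom_comp {N : T} [MonObj N] (f : M ⟶ N) [IsMonHom f] (x y : 𝟙_ T ⟶ M) :
    mulHom x y ≫ f = mulHom (x ≫ f) (y ≫ f) := by
  unfold mulHom
  rw [Category.assoc, Category.assoc, IsMonHom.mul_hom, tensorHom_comp_tensorHom_assoc]

end

section

variable [Preadditive T] [MonoidalPreadditive T] {M : T} [MonObj M]

lemma mulHom_add (x y z : 𝟙_ T ⟶ M) : mulHom x (y + z) = mulHom x y + mulHom x z := by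
  simp [mulHom, MonoidalPreadditive.tensor_add]

lemma add_mulHom (x y z : 𝟙_ T ⟶ M) : mulHom (x + y) z = mulHom x z + mulHom y z := by
  simp [mulHom, MonoidalPreadditive.add_tensor]

lemma mulHom_zero (x : 𝟙_ T ⟶ M) : mulHom x 0 = 0 := by
  simp [mulHom]

lemma zero_mulHom (x : 𝟙_ T ⟶ M) : mulHom 0 x = 0 := by
  simp [mulHom]

end

/-- `π₀ M`, the group of morphisms from the unit object to `M`. -/
def Pi0 (M : T) : Type v := 𝟙_ T ⟶ M

variable [Preadditive T]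

instance (M : T) : AddCommGroup (Pi0 M) := inferInstanceAs (AddCommGroup (𝟙_ T ⟶ M))

/-- `π₀ M` is a ring for a monoid object `M`: `x * y` is
`𝟙 ≅ 𝟙 ⊗ 𝟙 ⟶ M ⊗ M ⟶ M`, and `1` is the unit of `M`. -/
instance [MonoidalPreadditive T] (M : T) [MonObj M] : Ring (Pi0 M) where
  mul x y := mulHom x y
  one := (η[M] : 𝟙_ T ⟶ M)
  mul_assoc := mulHom_assoc
  one_mul := one_mulHom
  mul_one := mulHom_one
  left_distrib := mulHom_add
  right_distrib := add_mulHom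
  zero_mul := zero_mulHom
  mul_zero := mulHom_zero
  neg_add_cancel := neg_add_cancel
  sub_eq_add_neg := sub_eq_add_neg
  zsmul := fun n x => n • x
  zsmul_zero' := SubNegMonoid.zsmul_zero'
  zsmul_succ' := SubNegMonoid.zsmul_succ'
  zsmul_neg' := SubNegMonoid.zsmul_neg'
  nsmul := fun n x => n • x
  nsmul_zero := AddMonoid.nsmul_zero
  nsmul_succ := AddMonoid.nsmul_succ

/-- The ring homomorphism induced by a morphism of monoid objects. -/
def Pi0.map [MonoidalPreadditive T] {M N : T} [MonObj M] [MonObj N] (f : M ⟶ N) [IsMonHom f] :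
    Pi0 M →+* Pi0 N where
  toFun x := (show 𝟙_ T ⟶ M from x) ≫ f
  map_one' := IsMonHom.one_hom f
  map_mul' := mulHom_comp f
  map_zero' := Limits.zero_comp
  map_add' _ _ := Preadditive.add_comp _ _ _ _ _ _

end Vale.Agent.P251
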