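import Mathlib.CategoryTheory.Triangulated.Functor
import Mathlib.GroupTheory.Index
import Vale.Agent.P251.R.Gal
import Vale.Agent.P251.R.Pi

/-!
The homology groups `H(Y) = Hom(𝟙, K ⊗ I Y)`.
-/

set_option linter.unusedSectionVars false

open CategoryTheory MonoidalCategory Limits Pretriangulated MonObj

universe v u v' u'

namespace Vale.Agent.P251

variable {T : Type u} [Category.{v} T] [Preadditive T] [HasZeroObject T]
    [HasShift T ℤ] [∀ n : ℤ, (shiftFunctor T n).Additive] [Pretriangulated T]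
    [MonoidalCategory T] [TensorTriangulated T]
variable {D : Type u'} [Category.{v'} D] [Preadditive D] [HasZeroObject D]
    [HasShift D ℤ] [∀ n : ℤ, (shiftFunctor D n).Additive] [Pretriangulated D]
variable (K : T) (I : D ⥤ T)

/-- `H(Y) = Hom(𝟙, K ⊗ I Y)`. -/
abbrev H (Y : D) : Type v := 𝟙_ T ⟶ K ⊗ I.obj Y

variable {K I}

/-- Functoriality of `H`. -/
abbrev push {Y Z : D} (f : Y ⟶ Z) (x : H K I Y) : H K I Z := x ≫ (K ◁ I.map f)

omit [HasZeroObject T] [HasShift T ℤ] [∀ n : ℤ, (shiftFunctor T n).Additive] [Pretriangulated T]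
  [HasZeroObject D] [HasShift D ℤ] [∀ n : ℤ, (shiftFunctor D n).Additive] [Pretriangulated D]
  [TensorTriangulated T] [Preadditive D] [Preadditive T] in
lemma push_comp {Y Z W : D} (f : Y ⟶ Z) (g : Z ⟶ W) (x : H K I Y) :
    push (f ≫ g) x = push g (push f x) := by
  simp [push]

omit [HasZeroObject T] [HasShift T ℤ] [∀ n : ℤ, (shiftFunctor T n).Additive] [Pretriangulated T]
  [HasZeroObject D] [HasShift D ℤ] [∀ n : ℤ, (shiftFunctor D n).Additive] [Pretriangulated D]
  [TensorTriangulated T] [Preadditive D] [Preadditive T] in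
lemma push_id {Y : D} (x : H K I Y) : push (𝟙 Y) x = x := by
  simp [push]

lemma push_hom_add {Y Z : D} (f : Y ⟶ Z) (x y : H K I Y) :
    push f (x + y) = push f x + push f y := by
  simp [push]

lemma push_hom_zero {Y Z : D} (f : Y ⟶ Z) : push f (0 : H K I Y) = 0 := by
  simp [push]

variable [I.Additive]

lemma push_add {Y Z : D} (f g : Y ⟶ Z) (x : H K I Y) :
    push (f + g) x = push f x + push g x := by
  simp [push, Functor.map_add]

lemma push_zero {Y Z : D} (x : H K I Y) : push (0 : Y ⟶ Z) x = 0 := by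
  simp [push]

lemma push_neg {Y Z : D} (f : Y ⟶ Z) (x : H K I Y) :
    push (-f) x = - push f x := by
  have h := push_add f (-f) x
  rw [add_neg_cancel, push_zero] at h
  exact (neg_eq_of_add_eq_zero_right h.symm).symm

lemma push_sub {Y Z : D} (f g : Y ⟶ Z) (x : H K I Y) :
    push (f - g) x = push f x - push g x := by
  rw [sub_eq_add_neg, push_add, push_neg, sub_eq_add_neg]

omit [I.Additive] in
lemma push_exact₂ [I.CommShift ℤ] [I.IsTriangulated] (Δ : Triangle D) (hΔ : Δ ∈ distTriang D)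
    (x : H K I Δ.obj₂) (hx : push Δ.mor₂ x = 0) : ∃ y : H K I Δ.obj₁, push Δ.mor₁ y = x := by
  have h1 := I.map_distinguished Δ hΔ
  have h2 := TensorTriangulated.distinguished K _ h1
  obtain ⟨y, hy⟩ := Triangle.coyoneda_exact₂ _ h2 x hx
  exact ⟨y, hy.symm⟩

omit [I.Additive] in
lemma push_exact₃ [I.CommShift ℤ] [I.IsTriangulated] (Δ : Triangle D) (hΔ : Δ ∈ distTriang D)
    (x : H K I Δ.obj₃) (hx : push Δ.mor₃ x = 0) : ∃ y : H K I Δ.obj₂, push Δ.mor₂ y = x :=
  push_exact₂ Δ.rotate (rot_of_distTriang _ hΔ) x hx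

/-- `H` is invariant under isomorphisms. -/
def pushEquiv {Y Z : D} (e : Y ≅ Z) : H K I Y ≃ H K I Z where
  toFun := push e.hom
  invFun := push e.inv
  left_inv x := by simp [push]
  right_inv x := by simp [push]

end Vale.Agent.P251
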