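import Mathlib.Data.Set.Finite.Basic
import Mathlib.Algebra.Ring.Hom.Defs
import Mathlib.Data.Fintype.EquivFin
import Mathlib.Data.Fintype.Pigeonhole
import Mathlib.Tactic.Ring
import Mathlib.Tactic.Abel

/-!
Elements with `τ a = a + 1` produce elements algebraic over `𝔽₂` moved by `τ`.
-/

namespace Vale.Agent.P251

/-- In a finite ring of characteristic two, an element `a` with `τ a = a + 1` yields an element
`b = a ^ (2 ^ i)` with `b ^ (2 ^ M) = b`, `M > 0`, and `τ b = b + 1`. -/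
theorem exists_frobenius_fixed {R : Type*} [Ring R] [Finite R] (h2 : (1 : R) + 1 = 0)
    (τ : R →+* R) (a : R) (ha : τ a = a + 1) :
    ∃ (b : R) (M : ℕ), 0 < M ∧ b ^ 2 ^ M = b ∧ τ b = b + 1 := by
  have hτ : ∀ i : ℕ, τ (a ^ 2 ^ i) = a ^ 2 ^ i + 1 := by
    intro i
    induction i with
    | zero => simpa using ha
    | succ i ih =>
      rw [pow_succ, pow_mul, map_pow, ih, sq]
      have : (a ^ 2 ^ i + 1) * (a ^ 2 ^ i + 1) =
          (a ^ 2 ^ i) ^ 2 + 1 + a ^ 2 ^ i * (1 + 1) := by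
        simp only [add_mul, mul_add, one_mul, mul_one, sq]
        abel
      rw [this, h2, mul_zero, add_zero]
  obtain ⟨i, j, hij, h⟩ := Finite.exists_ne_map_eq_of_infinite (fun n : ℕ => a ^ 2 ^ n)
  have key : ∀ i j : ℕ, i < j → a ^ 2 ^ i = a ^ 2 ^ j →
      ∃ (b : R) (M : ℕ), 0 < M ∧ b ^ 2 ^ M = b ∧ τ b = b + 1 := by
    intro i j hlt hb
    refine ⟨a ^ 2 ^ i, j - i, Nat.sub_pos_of_lt hlt, ?_, hτ i⟩
    rw [← pow_mul, ← pow_add, Nat.add_sub_cancel' hlt.le, ← hb]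
  rcases lt_or_gt_of_ne hij with h' | h'
  · exact key i j h' h
  · exact key j i h' h.symm

end Vale.Agent.P251
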