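import Vale.Agent.P251.R.Core
import Vale.Agent.P251.R.NoAS

/-!
Main theorem in the abstract form.
-/

set_option linter.unusedSectionVars false

open CategoryTheory MonoidalCategory Limits Pretriangulated MonObj
open scoped CategoryTheory.Obj

universe v u v' u'

namespace Vale.Agent.P251

variable {T : Type u} [Category.{v} T] [Preadditive T] [HasZeroObject T]
    [HasShift T ℤ] [∀ n : ℤ, (shiftFunctor T n).Additive] [Pretriangulated T]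
    [MonoidalCategory T] [SymmetricCategory T] [TensorTriangulated T]
variable {D : Type u'} [Category.{v'} D] [Preadditive D] [HasZeroObject D]
    [HasShift D ℤ] [∀ n : ℤ, (shiftFunctor D n).Additive] [Pretriangulated D]
    [MonoidalCategory D] [SymmetricCategory D] [TensorTriangulated D]

attribute [instance] QuadraticExt.mon QuadraticExt.comm QuadraticExt.isMonHom_s

variable {K : T} [MonObj K] {I : D ⥤ T} [I.Additive] [I.LaxMonoidal] [I.CommShift ℤ]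
  [I.IsTriangulated]

lemma push_one {B : D} [MonObj B] : push η[B] (η[K ⊗ I.obj (𝟙_ D)]) = η[K ⊗ I.obj B] := by
  have : IsMonHom η[B] := ⟨by simp, by simp [← unitors_equal]⟩
  exact IsMonHom.one_hom (K ◁ I.map η[B])

/-- The ring homomorphism on `π₀ (K ⊗ I B)` induced by a map of monoid objects. -/
noncomputable abbrev ringMap (K : T) [MonObj K] (I : D ⥤ T) [I.LaxMonoidal] {B C : D} [MonObj B]
    [MonObj C] (f : B ⟶ C) [IsMonHom f] : Pi0 (K ⊗ I.obj B) →+* Pi0 (K ⊗ I.obj C) :=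
  Pi0.map (K ◁ I.map f)

lemma isMonHom_mul (E : D) [MonObj E] [IsCommMonObj E] : IsMonHom μ[E] where
  one_hom := by
    change ((λ_ (𝟙_ D)).inv ≫ (η[E] ⊗ₘ η[E])) ≫ μ[E] = η[E]
    rw [Category.assoc, one_mul_hom, Iso.inv_hom_id_assoc]
  mul_hom := by
    change (tensorμ E E E E ≫ (μ[E] ⊗ₘ μ[E])) ≫ μ[E] = (μ[E] ⊗ₘ μ[E]) ≫ μ[E]
    rw [Category.assoc, MonObj.mul_mul_mul_comm]

/-- The Artin–Schreier step for a monoid object `B` with an automorphism `τ`. -/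
lemma no_AS_object {B E : D} [MonObj B] [MonObj E] (h2 : η[K] + η[K] = 0)
    (τ : B ⟶ B) [IsMonHom τ] (a : H K I B) (ha : push τ a = a + η[K ⊗ I.obj B])
    (hfin : Finite (H K I B))
    (J : B ⟶ E) [IsMonHom J] (γ : E ⟶ E) [IsMonHom γ] (hJ : J ≫ γ = τ ≫ J)
    (hnt : (1 : Pi0 (K ⊗ I.obj E)) ≠ 0)
    (hid : ∀ (b : Pi0 (K ⊗ I.obj E)) (M : ℕ), 0 < M → b ^ 2 ^ M = b → ringMap K I γ b = b) :
    False := by
  have : Finite (Pi0 (K ⊗ I.obj B)) := hfin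
  obtain ⟨b, M, hM, hb, hτb⟩ := exists_frobenius_fixed (R := Pi0 (K ⊗ I.obj B))
    (add_self_eq_zero_of h2 (η[K ⊗ I.obj B])) (ringMap K I τ) a ha
  have h1 : ringMap K I γ (ringMap K I J b) = ringMap K I J b := by
    refine hid _ M hM ?_
    rw [← map_pow, hb]
  have h3 : ringMap K I γ (ringMap K I J b) = ringMap K I J (ringMap K I τ b) := by
    have h : ∀ x : H K I B, push γ (push J x) = push J (push τ x) := by
      intro x
      rw [← push_comp, hJ, push_comp]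
    exact h b
  rw [h3, hτb, map_add, map_one, add_eq_left] at h1
  exact hnt h1

/-- **Core theorem.** Two quadratic Galois extensions of the unit, with Thom isomorphisms, and
independent in a connected ring `E`, exclude that `H(𝟙)` has two and `H(𝟙[1])` at most two
elements. -/
theorem core (X₁ X₂ : QuadraticExt D)
    (Θ₁ : I ⋙ tensorLeft K ≅ tensorRight (X₁.L ⊗ X₁.L) ⋙ I ⋙ tensorLeft K)
    (Θ₂ : I ⋙ tensorLeft K ≅ tensorRight (X₂.L ⊗ X₂.L) ⋙ I ⋙ tensorLeft K)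
    (E : D) [MonObj E] [IsCommMonObj E] (j₁ : X₁.A ⟶ E) [IsMonHom j₁] (j₂ : X₂.A ⟶ E)
    [IsMonHom j₂] (γ₁ γ₂ : E ⟶ E) [IsMonHom γ₁] [IsMonHom γ₂]
    (h₁₁ : j₁ ≫ γ₁ = X₁.s ≫ j₁) (h₁₂ : j₁ ≫ γ₂ = j₁) (h₂₂ : j₂ ≫ γ₂ = X₂.s ≫ j₂)
    (hE : (1 : Pi0 (K ⊗ I.obj E)) ≠ 0)
    (hid₁ : ∀ (b : Pi0 (K ⊗ I.obj E)) (M : ℕ), 0 < M → b ^ 2 ^ M = b → ringMap K I γ₁ b = b)
    (hid₂ : ∀ (b : Pi0 (K ⊗ I.obj E)) (M : ℕ), 0 < M → b ^ 2 ^ M = b → ringMap K I γ₂ b = b)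
    (h2 : η[K] + η[K] = 0)
    (hu : ∀ x : H K I (𝟙_ D), x = 0 ∨ x = η[K ⊗ I.obj (𝟙_ D)])
    (hv : ∀ x y : H K I ((𝟙_ D)⟦(1 : ℤ)⟧), x ≠ 0 → y ≠ 0 → x = y)
    (hf : Finite (H K I ((𝟙_ D)⟦(-1 : ℤ)⟧)))
    (hf' : Finite (H K I (((𝟙_ D)⟦(-1 : ℤ)⟧)⟦(-1 : ℤ)⟧))) : False := by
  have := X₁.galois
  have := X₂.galois
  obtain ⟨φ₁, hφ₁⟩ := exists_phi (s := X₁.s) X₁.triangle
  obtain ⟨φ₂, hφ₂⟩ := exists_phi (s := X₂.s) X₂.triangle
  set u : H K I (𝟙_ D) := η[K ⊗ I.obj (𝟙_ D)] with hu_def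
  have hu2 : u + u = 0 := add_self_eq_zero_of h2 u
  have hfu : Finite (H K I (𝟙_ D)) := by
    refine Set.finite_univ_iff.mp ((Set.finite_singleton u).insert 0 |>.subset ?_)
    intro x _
    rcases hu x with h | h
    · exact Or.inl h
    · exact Or.inr h
  have hA : ∀ {B : D} [MonObj B] (j : B ⟶ E) [IsMonHom j], push (K := K) (I := I) η[B] u ≠ 0 := by
    intro B _ j _ h
    apply hE
    have h1 : ringMap K I j 1 = 1 := map_one _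
    rw [← h1]
    have h3 : (1 : Pi0 (K ⊗ I.obj B)) = 0 := by
      change η[K ⊗ I.obj B] = 0
      rw [← push_one]
      exact h
    rw [h3, map_zero]
  obtain ⟨g₁, hg₁⟩ := exists_g X₁.s_s X₁.triangle φ₁ hφ₁ Θ₁ u hu2 hu (hA j₁)
  obtain ⟨g₂, hg₂⟩ := exists_g X₂.s_s X₂.triangle φ₂ hφ₂ Θ₂ u hu2 hu (hA j₂)
  by_cases hρ : push X₁.U g₁ = 0
  · -- the first extension is already split
    obtain ⟨a, ha⟩ : ∃ a : H K I X₁.A, push X₁.q a = g₁ := push_exact₃ _ X₁.triangle g₁ hρ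
    have h3 : push X₁.s a = a + η[K ⊗ I.obj X₁.A] := by
      have h4 : push (X₁.s - 𝟙 X₁.A) a = push η[X₁.A] u := by
        rw [← q_comp_jMap φ₁ hφ₁, push_comp, ha, hg₁]
      rw [push_sub, push_id, push_one] at h4
      rw [← h4]; abel
    have hf1 : Finite (H K I X₁.A) := finite_of_iso (λ_ X₁.A)
      (finite_tensor h2 X₁.s_s X₁.triangle φ₁ hφ₁ Θ₁ (𝟙_ D) hfu hf)
    exact no_AS_object h2 X₁.s a h3 hf1 j₁ γ₁ h₁₁ hE hid₁
  · -- `U₁ g₁` spans, hence `U₂ g₂` dies in `A₁`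
    set z : (𝟙_ D)⟦(1 : ℤ)⟧ ⟶ X₁.A ⊗ ((𝟙_ D)⟦(1 : ℤ)⟧) :=
      (λ_ ((𝟙_ D)⟦(1 : ℤ)⟧)).inv ≫ (η[X₁.A] ▷ ((𝟙_ D)⟦(1 : ℤ)⟧)) with hz
    have hUz : X₁.U ≫ z = 0 := by
      have h5 : z ≫ (TensorTriangulated.shiftIso X₁.A (𝟙_ D)).hom =
          η[X₁.A]⟦(1 : ℤ)⟧' ≫ ((ρ_ X₁.A).inv)⟦(1 : ℤ)⟧' := by
        rw [hz, Category.assoc, TensorTriangulated.shiftIso_natural_left, ← Functor.map_comp]
        have h6 : (λ_ ((𝟙_ D)⟦(1 : ℤ)⟧)).inv ≫ (TensorTriangulated.shiftIso (𝟙_ D) (𝟙_ D)).hom =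
            ((λ_ (𝟙_ D)).inv)⟦(1 : ℤ)⟧' := by
          rw [Iso.inv_comp_eq, ← TensorTriangulated.shiftIso_unit, Category.assoc,
            ← Functor.map_comp, Iso.hom_inv_id, CategoryTheory.Functor.map_id, Category.comp_id]
        rw [← Category.assoc, h6, ← Functor.map_comp]
        congr 1
        rw [unitors_inv_equal]
        simp
      rw [← cancel_mono (TensorTriangulated.shiftIso X₁.A (𝟙_ D)).hom, Category.assoc, h5,
        ← Category.assoc]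
      have h7 : X₁.U ≫ η[X₁.A]⟦(1 : ℤ)⟧' = 0 := comp_distTriang_mor_zero₃₁ _ X₁.triangle
      rw [h7, zero_comp, zero_comp]
    have hρ₂ : push z (push X₂.U g₂) = 0 := by
      by_cases h0 : push X₂.U g₂ = 0
      · rw [h0, push_hom_zero]
      · rw [hv _ _ h0 hρ, ← push_comp, hUz, push_zero]
    set g' : H K I (X₁.A ⊗ X₂.L) := push ((λ_ X₂.L).inv ≫ (η[X₁.A] ▷ X₂.L)) g₂ with hg'
    have h8 : push (X₁.A ◁ X₂.U) g' = 0 := by
      rw [hg', ← push_comp]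
      have : ((λ_ X₂.L).inv ≫ (η[X₁.A] ▷ X₂.L)) ≫ (X₁.A ◁ X₂.U) = X₂.U ≫ z := by
        rw [hz, Category.assoc, ← whisker_exchange, leftUnitor_inv_naturality_assoc]
      rw [this, push_comp, hρ₂]
    obtain ⟨a, ha⟩ : ∃ a : H K I (X₁.A ⊗ X₂.A), push (X₁.A ◁ X₂.q) a = g' := by
      refine push_exact₃ _ (TensorTriangulated.distinguished X₁.A _ X₂.triangle) g' ?_
      change push ((X₁.A ◁ X₂.U) ≫ (TensorTriangulated.shiftIso X₁.A (𝟙_ D)).hom) g' = 0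
      rw [push_comp, h8, push_hom_zero]
    have h9 : push (X₁.A ◁ X₂.s) a = a + η[K ⊗ I.obj (X₁.A ⊗ X₂.A)] := by
      have h10 : push (X₁.A ◁ (X₂.s - 𝟙 X₂.A)) a = η[K ⊗ I.obj (X₁.A ⊗ X₂.A)] := by
        rw [← q_comp_jMap φ₂ hφ₂, MonoidalCategory.whiskerLeft_comp, push_comp, ha, hg',
          ← push_comp]
        have h11 : ((λ_ X₂.L).inv ≫ (η[X₁.A] ▷ X₂.L)) ≫ (X₁.A ◁ jMap X₂.A φ₂) =
            jMap X₂.A φ₂ ≫ (λ_ X₂.A).inv ≫ (η[X₁.A] ▷ X₂.A) := by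
          rw [Category.assoc, ← whisker_exchange, leftUnitor_inv_naturality_assoc]
        rw [h11, push_comp, hg₂, ← push_comp, ← push_one]
        congr 1
        change η[X₂.A] ≫ (λ_ X₂.A).inv ≫ (η[X₁.A] ▷ X₂.A) =
          (λ_ (𝟙_ D)).inv ≫ (η[X₁.A] ⊗ₘ η[X₂.A])
        rw [leftUnitor_inv_naturality_assoc, tensorHom_def']
      have h12 : X₁.A ◁ (X₂.s - 𝟙 X₂.A) = X₁.A ◁ X₂.s - 𝟙 (X₁.A ⊗ X₂.A) := by
        rw [← MonoidalCategory.whiskerLeft_id]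
        exact (tensorLeft X₁.A).map_sub
      rw [h12, push_sub, push_id] at h10
      rw [← h10]; abel
    have hf1 : Finite (H K I X₁.A) := finite_of_iso (λ_ X₁.A)
      (finite_tensor h2 X₁.s_s X₁.triangle φ₁ hφ₁ Θ₁ (𝟙_ D) hfu hf)
    have hf2 : Finite (H K I (X₁.A⟦(-1 : ℤ)⟧)) := by
      have h13 := finite_tensor h2 X₁.s_s X₁.triangle φ₁ hφ₁ Θ₁ ((𝟙_ D)⟦(-1 : ℤ)⟧) hf hf'
      exact finite_of_iso (β_ _ _ ≪≫ tensorShiftNeg X₁.A (𝟙_ D) ≪≫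
        (shiftFunctor D (-1 : ℤ)).mapIso (ρ_ X₁.A)) h13
    have hfin := finite_tensor (K := K) (I := I) h2 X₂.s_s X₂.triangle φ₂ hφ₂ Θ₂ X₁.A hf1 hf2
    have := isMonHom_mul E
    refine no_AS_object h2 (X₁.A ◁ X₂.s) a h9 hfin ((j₁ ⊗ₘ j₂) ≫ μ[E]) γ₂ ?_ hE hid₂
    rw [Category.assoc, IsMonHom.mul_hom, tensorHom_comp_tensorHom_assoc, h₁₂, h₂₂]
    simp [tensorHom_def']

end Vale.Agent.P251
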